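import Mathlib
import Vale.Agent.Lib.P162.Defs
import Vale.Agent.Lib.P162.RDefs
import Vale.Agent.Lib.P162.CVDefs
import Vale.Agent.Lib.P162.helper43.LumpTail
import Vale.Agent.Lib.P162.helper95.KmatBasic
import Vale.Agent.Lib.P162.helper23.ProdTv
import Vale.Agent.Lib.P162.helper36.MoveInj

/-!
# P162-CV2 (pool job 391): marginals of the two-walker kernel

Summing the t-step two-walker kernel over the start of one walker leaves the t-step kernel of
the chain of the other walker together with the old cards.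
-/

namespace Vale.Agent.Lib.P162.H45CV

open Finset BigOperators

/-- A tuple of length j + 2 is its first entry, its second entry and the rest. -/
theorem eta2 {α : Type*} {j : ℕ} (y : Fin (j + 2) → α) :
    (Fin.cons (y 0) (Fin.cons (y 1) (Fin.tail (Fin.tail y))) : Fin (j + 2) → α) = y := by
  have h0 : Fin.tail y 0 = y 1 := congrArg y Fin.succ_zero_eq_one
  have h1 : (Fin.cons (y 1) (Fin.tail (Fin.tail y)) : Fin (j + 1) → α) = Fin.tail y := by
    rw [← h0]
    exact Fin.cons_self_tail (Fin.tail y)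
  rw [h1]
  exact Fin.cons_self_tail y

/-- Summing the one-step kernel of j + 1 cards over the START of the new card gives the
one-step kernel of the old cards (each shuffle is a bijection of the positions). -/
theorem step_sum_start (h j : ℕ) [NeZero h] (v : Fin j → ZMod (2 * h))
    (y : Fin (j + 1) → ZMod (2 * h)) :
    ∑ q : ZMod (2 * h), Kmat h (j + 1) (Fin.cons q v : Fin (j + 1) → ZMod (2 * h)) y
      = Kmat h j v (Fin.tail y) := by
  classical
  show ∑ q : ZMod (2 * h),
      ((univ.filter fun c : ZMod h → Bool =>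
        ∀ i', move h c ((Fin.cons q v : Fin (j + 1) → ZMod (2 * h)) i') = y i').card : ℝ) / 2 ^ h
    = ((univ.filter fun c : ZMod h → Bool =>
        ∀ i, move h c (v i) = Fin.tail y i).card : ℝ) / 2 ^ h
  rw [← Finset.sum_div]
  congr 1
  rw [← Nat.cast_sum]
  congr 1
  have key : ∀ q : ZMod (2 * h),
      (univ.filter fun c : ZMod h → Bool =>
        ∀ i', move h c ((Fin.cons q v : Fin (j + 1) → ZMod (2 * h)) i') = y i').card
      = ∑ c : ZMod h → Bool,
          if (move h c q = y 0 ∧ ∀ i, move h c (v i) = Fin.tail y i) then 1 else 0 := by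
    intro q
    rw [Finset.card_filter]
    refine Finset.sum_congr rfl fun c _ => ?_
    have hiff : (∀ i', move h c ((Fin.cons q v : Fin (j + 1) → ZMod (2 * h)) i') = y i')
        ↔ (move h c q = y 0 ∧ ∀ i, move h c (v i) = Fin.tail y i) := by
      constructor
      · intro hc
        refine ⟨?_, fun i => ?_⟩
        · have h1 := hc 0
          rw [Fin.cons_zero] at h1
          exact h1
        · have h1 := hc i.succ
          rw [Fin.cons_succ] at h1
          exact h1
      · rintro ⟨h0, hc⟩ i'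
        refine Fin.cases ?_ (fun i => ?_) i'
        · rw [Fin.cons_zero]
          exact h0
        · rw [Fin.cons_succ]
          exact hc i
    rw [if_congr hiff rfl rfl]
  rw [Finset.sum_congr rfl fun q _ => key q, Finset.sum_comm, Finset.card_filter]
  refine Finset.sum_congr rfl fun c _ => ?_
  obtain ⟨q0, hq0⟩ := (Finite.injective_iff_surjective.mp (H36.move_injective h c)) (y 0)
  by_cases hR : ∀ i, move h c (v i) = Fin.tail y i
  · rw [if_pos hR]
    rw [Finset.sum_eq_single q0]
    · rw [if_pos ⟨hq0, hR⟩]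
    · intro q _ hne
      rw [if_neg]
      rintro ⟨hq, _⟩
      exact hne (H36.move_injective h c (hq.trans hq0.symm))
    · intro hq
      exact absurd (Finset.mem_univ q0) hq
  · rw [if_neg hR]
    refine Finset.sum_eq_zero fun q _ => ?_
    rw [if_neg]
    rintro ⟨_, hR'⟩
    exact hR hR'

/-- An entry of the kernel of j + 1 cards vanishes when the old cards cannot make the move. -/
theorem Kmat_succ_eq_zero (h j : ℕ) [NeZero h] (q a : ZMod (2 * h))
    (v x : Fin j → ZMod (2 * h)) (h0 : Kmat h j v x = 0) :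
    Kmat h (j + 1) (Fin.cons q v : Fin (j + 1) → ZMod (2 * h)) (Fin.cons a x) = 0 := by
  have hs := H43.step_tail h j (Fin.cons q v : Fin (j + 1) → ZMod (2 * h)) x
  rw [Fin.tail_cons, h0] at hs
  have hnn : ∀ a' ∈ (univ : Finset (ZMod (2 * h))),
      0 ≤ Kmat h (j + 1) (Fin.cons q v : Fin (j + 1) → ZMod (2 * h)) (Fin.cons a' x) :=
    fun a' _ => H95.stepProb_nonneg h (j + 1) _ _
  exact (Finset.sum_eq_zero_iff_of_nonneg hnn).mp hs a (Finset.mem_univ a)

/-- One step, walker two summed out. -/
theorem Q_sum_two (h j : ℕ) [NeZero h] (q : ZMod (2 * h)) (v : Fin j → ZMod (2 * h))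
    (u : Fin (j + 2) → ZMod (2 * h)) :
    ∑ q' : ZMod (2 * h), Qmat h j (Fin.cons q (Fin.cons q' v)) u
      = Kmat h (j + 1) (Fin.cons q v) (dropTwo u) := by
  rw [← eta2 u, dropTwo_cons]
  generalize u 0 = a
  generalize u 1 = b
  generalize Fin.tail (Fin.tail u) = x
  have h1 : ∀ q' : ZMod (2 * h),
      Qmat h j (Fin.cons q (Fin.cons q' v)) (Fin.cons a (Fin.cons b x))
        = Kmat h (j + 1) (Fin.cons q v) (Fin.cons a x)
          * Kmat h (j + 1) (Fin.cons q' v) (Fin.cons b x) / Kmat h j v x :=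
    fun q' => Qmat_cons h j q q' a b v x
  rw [Finset.sum_congr rfl fun q' _ => h1 q', ← Finset.sum_div, ← Finset.mul_sum,
    step_sum_start h j v (Fin.cons b x), Fin.tail_cons]
  by_cases h0 : Kmat h j v x = 0
  · rw [h0, mul_zero, zero_div]
    exact (Kmat_succ_eq_zero h j q a v x h0).symm
  · exact mul_div_cancel_right₀ _ h0

/-- One step, walker one summed out. -/
theorem Q_sum_one (h j : ℕ) [NeZero h] (q' : ZMod (2 * h)) (v : Fin j → ZMod (2 * h))
    (u : Fin (j + 2) → ZMod (2 * h)) :
    ∑ q : ZMod (2 * h), Qmat h j (Fin.cons q (Fin.cons q' v)) u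
      = Kmat h (j + 1) (Fin.cons q' v) (Fin.tail u) := by
  rw [← eta2 u, tail_cons_cons]
  generalize u 0 = a
  generalize u 1 = b
  generalize Fin.tail (Fin.tail u) = x
  have h1 : ∀ q : ZMod (2 * h),
      Qmat h j (Fin.cons q (Fin.cons q' v)) (Fin.cons a (Fin.cons b x))
        = Kmat h (j + 1) (Fin.cons q v) (Fin.cons a x)
          * Kmat h (j + 1) (Fin.cons q' v) (Fin.cons b x) / Kmat h j v x :=
    fun q => Qmat_cons h j q q' a b v x
  rw [Finset.sum_congr rfl fun q _ => h1 q, ← Finset.sum_div, ← Finset.sum_mul,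
    step_sum_start h j v (Fin.cons a x), Fin.tail_cons]
  by_cases h0 : Kmat h j v x = 0
  · rw [h0, zero_mul, zero_div]
    exact (Kmat_succ_eq_zero h j q' b v x h0).symm
  · exact mul_div_cancel_left₀ _ h0

/-- Time zero, walker two summed out. -/
theorem one_sum_two {α : Type*} [Fintype α] [DecidableEq α] (j : ℕ) (q : α) (v : Fin j → α)
    (y : Fin (j + 2) → α) :
    ∑ q' : α, (1 : Matrix (Fin (j + 2) → α) (Fin (j + 2) → α) ℝ) (Fin.cons q (Fin.cons q' v)) y
      = (1 : Matrix (Fin (j + 1) → α) (Fin (j + 1) → α) ℝ) (Fin.cons q v) (dropTwo y) := by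
  rw [← eta2 y, dropTwo_cons]
  generalize y 0 = a
  generalize y 1 = b
  generalize Fin.tail (Fin.tail y) = x
  simp only [Matrix.one_apply, Fin.cons_inj]
  by_cases h1 : q = a <;> by_cases h2 : v = x <;> simp [h1, h2]

/-- Time zero, walker one summed out. -/
theorem one_sum_one {α : Type*} [Fintype α] [DecidableEq α] (j : ℕ) (q' : α) (v : Fin j → α)
    (y : Fin (j + 2) → α) :
    ∑ q : α, (1 : Matrix (Fin (j + 2) → α) (Fin (j + 2) → α) ℝ) (Fin.cons q (Fin.cons q' v)) y
      = (1 : Matrix (Fin (j + 1) → α) (Fin (j + 1) → α) ℝ) (Fin.cons q' v) (Fin.tail y) := by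
  rw [← eta2 y, tail_cons_cons]
  generalize y 0 = a
  generalize y 1 = b
  generalize Fin.tail (Fin.tail y) = x
  simp only [Matrix.one_apply, Fin.cons_inj]
  by_cases h1 : q' = b <;> by_cases h2 : v = x <;> simp [h1, h2]

/-- Summing the t-step two-walker kernel over the start of walker two leaves the t-step kernel
of walker one together with the old cards. -/
theorem Qpow_sum_two (h j : ℕ) [NeZero h] (t : ℕ) (q : ZMod (2 * h)) (v : Fin j → ZMod (2 * h))
    (y : Fin (j + 2) → ZMod (2 * h)) :
    ∑ q' : ZMod (2 * h), (Qmat h j ^ t) (Fin.cons q (Fin.cons q' v)) y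
      = (Kmat h (j + 1) ^ t) (Fin.cons q v) (dropTwo y) := by
  classical
  induction t generalizing q v with
  | zero =>
    rw [pow_zero, pow_zero]
    exact one_sum_two j q v y
  | succ t ih =>
    rw [pow_succ', pow_succ']
    have h1 : ∀ q' : ZMod (2 * h),
        (Qmat h j * Qmat h j ^ t) (Fin.cons q (Fin.cons q' v)) y
          = ∑ u, Qmat h j (Fin.cons q (Fin.cons q' v)) u * (Qmat h j ^ t) u y :=
      fun q' => Matrix.mul_apply
    rw [Finset.sum_congr rfl fun q' _ => h1 q', Finset.sum_comm]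
    have h2 : ∀ u : Fin (j + 2) → ZMod (2 * h),
        ∑ q' : ZMod (2 * h), Qmat h j (Fin.cons q (Fin.cons q' v)) u * (Qmat h j ^ t) u y
          = Kmat h (j + 1) (Fin.cons q v) (dropTwo u) * (Qmat h j ^ t) u y := by
      intro u
      rw [← Finset.sum_mul, Q_sum_two]
    rw [Finset.sum_congr rfl fun u _ => h2 u, H23.sum_fin_succ_fun]
    rw [Matrix.mul_apply, H23.sum_fin_succ_fun]
    refine Finset.sum_congr rfl fun a _ => ?_
    rw [H23.sum_fin_succ_fun, Finset.sum_comm]
    refine Finset.sum_congr rfl fun x _ => ?_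
    have h3 : ∀ b : ZMod (2 * h),
        Kmat h (j + 1) (Fin.cons q v) (dropTwo (Fin.cons a (Fin.cons b x)))
            * (Qmat h j ^ t) (Fin.cons a (Fin.cons b x)) y
          = Kmat h (j + 1) (Fin.cons q v) (Fin.cons a x)
            * (Qmat h j ^ t) (Fin.cons a (Fin.cons b x)) y := fun b => rfl
    rw [Finset.sum_congr rfl fun b _ => h3 b, ← Finset.mul_sum, ih a x]

/-- Summing the t-step two-walker kernel over the start of walker one leaves the t-step kernel
of walker two together with the old cards. -/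
theorem Qpow_sum_one (h j : ℕ) [NeZero h] (t : ℕ) (q' : ZMod (2 * h)) (v : Fin j → ZMod (2 * h))
    (y : Fin (j + 2) → ZMod (2 * h)) :
    ∑ q : ZMod (2 * h), (Qmat h j ^ t) (Fin.cons q (Fin.cons q' v)) y
      = (Kmat h (j + 1) ^ t) (Fin.cons q' v) (Fin.tail y) := by
  classical
  induction t generalizing q' v with
  | zero =>
    rw [pow_zero, pow_zero]
    exact one_sum_one j q' v y
  | succ t ih =>
    rw [pow_succ', pow_succ']
    have h1 : ∀ q : ZMod (2 * h),
        (Qmat h j * Qmat h j ^ t) (Fin.cons q (Fin.cons q' v)) y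
          = ∑ u, Qmat h j (Fin.cons q (Fin.cons q' v)) u * (Qmat h j ^ t) u y :=
      fun q => Matrix.mul_apply
    rw [Finset.sum_congr rfl fun q _ => h1 q, Finset.sum_comm]
    have h2 : ∀ u : Fin (j + 2) → ZMod (2 * h),
        ∑ q : ZMod (2 * h), Qmat h j (Fin.cons q (Fin.cons q' v)) u * (Qmat h j ^ t) u y
          = Kmat h (j + 1) (Fin.cons q' v) (Fin.tail u) * (Qmat h j ^ t) u y := by
      intro u
      rw [← Finset.sum_mul, Q_sum_one]
    rw [Finset.sum_congr rfl fun u _ => h2 u, H23.sum_fin_succ_fun, Finset.sum_comm]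
    rw [Matrix.mul_apply]
    refine Finset.sum_congr rfl fun w _ => ?_
    have h3 : ∀ a : ZMod (2 * h),
        Kmat h (j + 1) (Fin.cons q' v) (Fin.tail (Fin.cons a w : Fin (j + 2) → ZMod (2 * h)))
            * (Qmat h j ^ t) (Fin.cons a w) y
          = Kmat h (j + 1) (Fin.cons q' v) w * (Qmat h j ^ t) (Fin.cons a w) y := fun a => rfl
    rw [Finset.sum_congr rfl fun a _ => h3 a, ← Finset.mul_sum]
    have h4 := ih (w 0) (Fin.tail w)
    rw [Fin.cons_self_tail w] at h4
    rw [h4]

end Vale.Agent.Lib.P162.H45CV
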